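import Vale.Agent.Lib.P308.Bridge
import Vale.Agent.Lib.P308F.Prod

namespace Vale.Agent.Results.P308.Combined

open Vale.Agent.Lib.P308 Vale.Agent.Lib.P308E Vale.Agent.Lib.P308F

/-- Four results on the ratio of the number of near-perfect matchings (matchings leaving exactly
two vertices uncovered) to the number of perfect matchings of a finite simple graph `G` on `N`
vertices, which need not be bipartite.
(1) If the independence number is at most `k` and `G` has a perfect matching, the ratio is at most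
`3 k N ^ (6 k)`.
(2) A combinatorial criterion: maximum degree at most `d`, fractional expansion with parameters
`p`, `g`, `I`, and an edge between any two sets of size `g ^ I`, give ratio at most
`(p d) ^ (2 I) N`.
(3) If `G` is `d`-regular and all nontrivial adjacency eigenvalues are at most `d / 25` in absolute
value, the ratio is at most `N ^ 7`, uniformly in `d`.
(4) If `G` is `d`-regular on `2 n` vertices and all nontrivial adjacency eigenvalues are at most
`d / 50` in absolute value, then `G` has at least `(d / 46656) ^ n` perfect matchings. -/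
theorem result {V : Type*} [Fintype V] [DecidableEq V] (G : SimpleGraph V) [DecidableRel G.Adj] :
    (∀ k : ℕ, G.indepNum ≤ k → (∃ M : G.Subgraph, M.IsPerfectMatching) →
      {M : G.Subgraph | M.IsMatching ∧ (M.vertsᶜ).ncard = 2}.ncard
        ≤ 3 * k * (Fintype.card V) ^ (6 * k) * {M : G.Subgraph | M.IsPerfectMatching}.ncard) ∧
    (∀ (p : ℝ) (d g I : ℕ), 0 < p → (∀ v, G.degree v ≤ d) → 2 ≤ g →
      (∀ L C : Finset V, g * L.card ≤ g ^ I → C.card ≤ (4 + 4 * g) * L.card →
        ((g * L.card : ℕ) : ℝ) ≤ ∑ x ∈ Cᶜ, min 1 (p * ((G.neighborFinset x ∩ L).card : ℝ))) →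
      (∀ S T : Finset V, S.card = g ^ I → T.card = g ^ I → ∃ x ∈ S, ∃ y ∈ T, G.Adj x y) →
      ({M : G.Subgraph | M.IsMatching ∧ (M.vertsᶜ).ncard = 2}.ncard : ℝ)
        ≤ (p * d) ^ (2 * I) *
          (Fintype.card V * {M : G.Subgraph | M.IsPerfectMatching}.ncard)) ∧
    (∀ d : ℕ, 0 < d → G.IsRegularOfDegree d →
      (∀ f : V → ℝ, ∑ v, f v = 0 →
        ∑ v, (∑ w ∈ G.neighborFinset v, f w) ^ 2 ≤ ((d : ℝ) / 25) ^ 2 * ∑ v, f v ^ 2) →
      {M : G.Subgraph | M.IsMatching ∧ (M.vertsᶜ).ncard = 2}.ncard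
        ≤ (Fintype.card V) ^ 7 * {M : G.Subgraph | M.IsPerfectMatching}.ncard) ∧
    (∀ d n : ℕ, 0 < d → G.IsRegularOfDegree d → Fintype.card V = 2 * n →
      (∀ f : V → ℝ, ∑ v, f v = 0 →
        ∑ v, (∑ w ∈ G.neighborFinset v, f w) ^ 2 ≤ ((d : ℝ) / 50) ^ 2 * ∑ v, f v ^ 2) →
      ((d : ℝ) / 46656) ^ n ≤ ({M : G.Subgraph | M.IsPerfectMatching}.ncard : ℝ)) := by
  refine ⟨?_, ?_, ?_, ?_⟩
  · intro k hk hpm
    apply main k _ hpm
    intro s hs
    refine le_trans (SimpleGraph.IsIndepSet.card_le_indepNum (G := G) (t := s) ?_) hk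
    intro x hx y hy _
    exact hs x hx y hy
  · intro p d g I hp hd hg h1 h2
    exact comb_main G hp d g I hd hg h1 h2
  · intro d hd hreg hspec
    exact final G hd hreg (lam := (d : ℝ) / 25) (by positivity) hspec (by linarith)
  · intro d n hd hreg hN hspec
    exact finalH G hd hreg hspec n hN

end Vale.Agent.Results.P308.Combined
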