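import Vale.Agent.Lib.P308E.Comb

namespace Vale.Agent.Results.P308.ExpansionCriterion

open Vale.Agent.Lib.P308E

/-- A purely combinatorial criterion, for graphs that need not be regular or bipartite.
Let `G` have maximum degree at most `d`, let `p > 0`, `g ≥ 2` and `I` be parameters such that
* (fractional expansion) for all vertex sets `L`, `C` with `|L| ≤ g ^ (I - 1)` (written
  `g |L| ≤ g ^ I`) and `|C| ≤ (4 + 4 g) |L|`, the sum over `x ∉ C` of
  `min (1, p * #(neighbours of x in L))` is at least `g |L|`;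
* any two vertex sets of size `g ^ I` are joined by an edge.
Then the number of near-perfect matchings is at most `(p d) ^ (2 I) * N` times the number of
perfect matchings. -/
theorem result {V : Type*} [Fintype V] [DecidableEq V] (G : SimpleGraph V) [DecidableRel G.Adj]
    (p : ℝ) (hp : 0 < p) (d g I : ℕ) (hd : ∀ v, G.degree v ≤ d) (hg : 2 ≤ g)
    (h1 : ∀ L C : Finset V, g * L.card ≤ g ^ I → C.card ≤ (4 + 4 * g) * L.card →
      ((g * L.card : ℕ) : ℝ) ≤ ∑ x ∈ Cᶜ, min 1 (p * ((G.neighborFinset x ∩ L).card : ℝ)))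
    (h2 : ∀ S T : Finset V, S.card = g ^ I → T.card = g ^ I → ∃ x ∈ S, ∃ y ∈ T, G.Adj x y) :
    ({M : G.Subgraph | M.IsMatching ∧ (M.vertsᶜ).ncard = 2}.ncard : ℝ)
      ≤ (p * d) ^ (2 * I) * (Fintype.card V * {M : G.Subgraph | M.IsPerfectMatching}.ncard) :=
  comb_main G hp d g I hd hg h1 h2

end Vale.Agent.Results.P308.ExpansionCriterion
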