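import Vale.Agent.Lib.P308E.Final

namespace Vale.Agent.Results.P308.RegularExpanders

open Vale.Agent.Lib.P308E

/-- Let `G` be a `d`-regular graph (`d ≥ 1`, any `d`, not necessarily bipartite) on `N` vertices
whose adjacency operator has norm at most `d / 25` on the functions of mean zero, i.e. all
eigenvalues of the adjacency matrix other than the trivial eigenvalue `d` have absolute value at
most `d / 25`.  Then the number of near-perfect matchings of `G` (matchings leaving exactly two
vertices uncovered) is at most `N ^ 7` times the number of perfect matchings of `G`. -/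
theorem result {V : Type*} [Fintype V] [DecidableEq V] (G : SimpleGraph V) [DecidableRel G.Adj]
    (d : ℕ) (hd : 0 < d) (hreg : G.IsRegularOfDegree d)
    (hspec : ∀ f : V → ℝ, ∑ v, f v = 0 →
      ∑ v, (∑ w ∈ G.neighborFinset v, f w) ^ 2 ≤ ((d : ℝ) / 25) ^ 2 * ∑ v, f v ^ 2) :
    {M : G.Subgraph | M.IsMatching ∧ (M.vertsᶜ).ncard = 2}.ncard
      ≤ (Fintype.card V) ^ 7 * {M : G.Subgraph | M.IsPerfectMatching}.ncard :=
  final G hd hreg (lam := (d : ℝ) / 25) (by positivity) hspec (by linarith)

end Vale.Agent.Results.P308.RegularExpanders
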